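import Vale.Agent.P284.H573.PT.Der
import Vale.Agent.P284.H553.PT.Pot
import Vale.Agent.P284.H213.PT.Trans
import Vale.Agent.P284.H501.Pot.Main
import Vale.Agent.P284.H501.Core.LimAll

/-!
# P284 (helper573): the potentials exist (`PotS`), the limit exists for every `q`
-/

namespace Vale.Agent.P284.H573.PT

/-- **The potentials.** -/
theorem potS : H366.PotS :=
  H501.Pot.potS_of H553.PT.locPot locDer H213.PT.locTransStmt H213.PT.locConstStmt

/-- **The limit for every `q`.** -/
theorem limAt (q : ℕ) : H501.Core.LimAt q := H501.Core.limAt_of_pot potS q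

end Vale.Agent.P284.H573.PT
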