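import Vale.Agent.P284.H553.PT.Loc2
import Vale.Agent.P284.H366.PT.LocD
import Vale.Agent.P284.H402.B.TF4
import Vale.Agent.P284.H625.NS.LocForm

/-!
# P284 (helper573), POT: the derivative of the potential along the fibres (`LocDerStmt`)
-/

open scoped Manifold ContDiff Topology InnerProductSpace ComplexConjugate ENNReal Matrix
open Filter Set MeasureTheory Metric

noncomputable section

set_option linter.unusedSectionVars false

namespace Vale.Agent.P284.H573.PT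

open Vale.Agent.P272.K Vale.Agent.P284.H894 Vale.Agent.P284.H894.G Vale.Agent.P284.H894.V
  Vale.Agent.P284.H894.W Vale.Agent.P284.H501 Vale.Agent.P284.H501.Core
  Vale.Agent.P284.H402.A Vale.Agent.P284.H402.B Vale.Agent.P284.H551 Vale.Agent.P284.H366
  Vale.Agent.P284.H366.PT Vale.Agent.P284.H553.PT

section
variable {Γ : Type}

variable (Γ) in
/-- the conjugation of the ultraproduct as a real linear map -/
def cjR (U : Ultrafilter ℕ) : WU Γ U →L[ℝ] WU Γ U where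
  toFun := cjU Γ U
  map_add' := map_add _
  map_smul' := fun r u => by
    have h : (r • u : WU Γ U) = ((r : ℂ) • u : WU Γ U) := rfl
    have h' : (r • cjU Γ U u : WU Γ U) = ((r : ℂ) • cjU Γ U u : WU Γ U) := rfl
    rw [h, map_smulₛₗ, Complex.conj_ofReal]
    exact h'.symm
  cont := (cjU Γ U).continuous

theorem cjR_apply (U : Ultrafilter ℕ) (u : WU Γ U) : cjR Γ U u = cjU Γ U u := rfl

end

/-- **`LocDerStmt`** -/
theorem locDer : LocDerStmt := by
  intro n X _ _ _ _ _ _ w hw E Γ _ _ _ _ p hG C D K hKw q F c B hF hc hreg f hf U hT Dm γ a z₁ hz₁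
    hsur b V hV
  set θ := hfF hG D K hKw hF hc hreg with hθ
  set t := Fc D F γ a with ht
  set s := LimS Dm U (fun k => tf θ (hf k)) γ a with hs
  have hzΩ : z₁ ∈ C.Ω a := V_sub_Ω C a (Dm.Q_sub a hz₁)
  have htan : AnalyticAt ℂ t z₁ := H553.PT.Fc_an hG D hF γ hzΩ
  have hQ : ∀ᶠ z in 𝓝 z₁, z ∈ Dm.Q a := (Dm.Q_open a).mem_nhds hz₁
  have hsan : AnalyticAt ℂ s z₁ := LimS_analyticAt Dm hT γ a hz₁
  have hcl : ∀ᶠ z in 𝓝 z₁, extDeriv s z = 0 :=
    hQ.mono fun z hz => LimS_closed Dm hT (fun k => tf_closed θ (hf k)) γ a hz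
  have hsurn : ∀ᶠ z in 𝓝 z₁, Function.Surjective (fderiv ℂ t z) := by
    exact htan.fderiv.continuousAt.eventually_mem (surj_isOpen.mem_nhds hsur)
  have hrel : ∀ᶠ z in 𝓝 z₁, ∀ (ξ : Fin (q + 1) → Cm n) (i j : Fin (q + 1)), i ≠ j →
      fderiv ℂ t z (ξ i) = 0 → fderiv ℂ t z (ξ j) = 0 → s z ξ = 0 := by
    filter_upwards [hQ, hsurn] with z hz hsz ξ i j hij hi hj
    exact LimS_rel Dm θ hf hT γ a hz (inj_of_surj (thF_apply D hc γ a z) hsz) hij
      ((vert_iff hc γ a z (ξ i)).1 hi) ((vert_iff hc γ a z (ξ j)).1 hj)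
  obtain ⟨G, hGan, hGW⟩ := H625.rel_poincare htan hsan hcl hrel hsur
  obtain ⟨T, χ, hχ⟩ := exists_chi htan hsur
  have hex : ∀ i : Fin q, ∃ v, fderiv ℂ t z₁ v = Pi.single i 1 := fun i => hsur _
  choose e he using hex
  have hva := vert_appr hG D K hKw hF hc hreg hf hT Dm γ a hz₁ hχ he
  set L : Cm n →L[ℂ] Cm q := fderiv ℂ t z₁ with hL
  set Ψ : ℕ → Cm n → L2 Γ := fun k x => PhiF (hf k) γ a (χ x) with hΨ
  set b' : ℕ → Cm q → L2 Γ := fun k u => b k (t z₁ + u) with hb'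
  have hV' : Appr (H := fun _ => L2 Γ) U 0 (fun k x => V k (χ x))
      (fun k x => PhiF (hf k) γ a (χ x) - b k (t (χ x))) := by
    refine H213.PT.compStmt n (fun _ => L2 Γ) U χ 0 hχ.χan hχ.χbij.self_of_nhds V
      (fun k y => PhiF (hf k) γ a y - b k (t y)) ?_
    rw [hχ.χ0]
    exact hV
  have hV'' : Appr (H := fun _ => L2 Γ) U 0 (fun k x => V k (χ x))
      (fun k x => Ψ k x - b' k (L x)) := by
    refine hV'.congr (Eventually.of_forall fun y k => rfl) ?_
    filter_upwards [hχ.t_χ] with x hx k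
    simp only [hΨ, hb', hx, hL]
  -- a common ball
  have hev : ∀ᶠ x in 𝓝 (0 : Cm n), (∀ k, ContDiffAt ℝ 1 (Ψ k) x) ∧
      (DifferentiableAt ℝ (fun x => G (χ x) + cjR Γ U (G (χ x))) x ∧ ∀ v, L v = 0 →
        ∃ w, Appr (H := fun _ => L2 Γ) U x w (fun k y => fderiv ℝ (Ψ k) y v) ∧
          fderiv ℝ (fun x => G (χ x) + cjR Γ U (G (χ x))) x v = mk U fun k => w k x) := by
    filter_upwards [hva, hχ.χan.eventually_analyticAt, hχ.tχ.eventually hGan.eventually_analyticAt,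
      hχ.tχ.eventually hGW, hχ.dt htan, hχ.tχ.eventually (isOpen_ball.mem_nhds hzΩ)] with
      x a1 a2 a3 a4 a5 a6
    have h0 : HasFDerivAt (fun x => G (χ x))
        (((fderiv ℂ G (χ x)).comp (fderiv ℂ χ x)).restrictScalars ℝ) x :=
      (a3.differentiableAt.hasFDerivAt.comp x a2.differentiableAt.hasFDerivAt).restrictScalars ℝ
    have h1 : HasFDerivAt (fun x => G (χ x) + cjR Γ U (G (χ x)))
        ((((fderiv ℂ G (χ x)).comp (fderiv ℂ χ x)).restrictScalars ℝ) +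
          (cjR Γ U).comp (((fderiv ℂ G (χ x)).comp (fderiv ℂ χ x)).restrictScalars ℝ)) x :=
      h0.add ((cjR Γ U).hasFDerivAt.comp x h0)
    refine ⟨fun k => ?_, h1.differentiableAt, fun v hv => ?_⟩
    · have hP := vec_contDiffAt (S := (hf k).fin.toFinset) (k := 1) (z := χ x)
        (f := fun g z => ((f k g a z : ℝ) : ℂ)) γ fun g _ =>
        (Complex.ofRealCLM.contDiff.contDiffAt.comp _
          (((hf k).smooth g a (χ x) a6).of_le (by exact_mod_cast le_top)))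
      exact hP.comp x (a2.contDiffAt.restrict_scalars ℝ)
    · obtain ⟨w', hw1, hw2⟩ := a1 v hv
      refine ⟨w', hw1, ?_⟩
      rw [hw2, h1.fderiv]
      have hη : fderiv ℂ t (χ x) (fderiv ℂ χ x v) = 0 := by rw [a5, hv]
      have hu : ∀ i, fderiv ℂ t (χ x) (fderiv ℂ χ x (e i)) = Pi.single i 1 := fun i => by
        rw [a5]; exact he i
      have h3 := a4.snoc (fun i => fderiv ℂ χ x (e i)) hη
      rw [dL_one hu, one_smul] at h3
      rw [← hs, h3]
      rfl
  obtain ⟨ρ, hρ, hball⟩ := Metric.eventually_nhds_iff_ball.1 hev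
  obtain ⟨ε, hε, hfin⟩ := locD n q (fun _ => L2 Γ) U L Ψ 0 ρ hρ (fun k x hx => (hball x hx).1 k) b'
    (fun k x => V k (χ x)) hV'' (fun x => G (χ x) + cjR Γ U (G (χ x))) fun x hx => (hball x hx).2
  refine ⟨G, hGan, ?_⟩
  filter_upwards [hGW, hχ.tT.eventually (ball_mem_nhds (0 : Cm n) hε), hχ.χT] with z h1 h2 h3
  refine ⟨h1, fun hz => ?_⟩
  have h4 := hfin (T z) h2 (by
    rw [map_zero, hL, hχ.eq z, hz, sub_self])
  simp only [h3, hχ.χ0, cjR_apply] at h4
  rw [h4]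
  abel

end Vale.Agent.P284.H573.PT
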